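import Mathlib

set_option autoImplicit false

namespace Crest.Agent.R19

open Finset

/-- Number of ordered pairs of `A` congruent modulo `q`. -/
def coll (A : Finset ℕ) (q : ℕ) : ℕ := ((A ×ˢ A).filter fun p => p.1 ≡ p.2 [MOD q]).card

section

variable {q : ℕ} [NeZero q]

/-- exponential sum over a finite set -/
noncomputable def fs (A : Finset ℕ) (h : ZMod q) : ℂ :=
  ∑ s ∈ A, ZMod.stdAddChar (h * (s : ZMod q))

theorem orth (b : ZMod q) :
    ∑ h : ZMod q, ZMod.stdAddChar (h * b) = if b = 0 then (q : ℂ) else 0 := by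
  rw [AddChar.sum_mulShift b (ZMod.isPrimitive_stdAddChar q)]
  simp [ZMod.card]

theorem parseval (A : Finset ℕ) :
    ∑ h : ZMod q, ‖fs A h‖ ^ 2 = (q : ℝ) * coll A q := by
  have h1 : ∀ h : ZMod q, ((‖fs A h‖ ^ 2 : ℝ) : ℂ) =
      ∑ p ∈ A ×ˢ A, ZMod.stdAddChar (h * ((p.1 : ZMod q) - (p.2 : ZMod q))) := by
    intro h
    rw [← Complex.normSq_eq_norm_sq, ← Complex.mul_conj, fs, map_sum, sum_mul_sum, sum_product]
    refine sum_congr rfl fun s _ => sum_congr rfl fun s' _ => ?_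
    rw [← AddChar.map_neg_eq_conj, ← AddChar.map_add_eq_mul]
    congr 1; ring
  have h2 : ((∑ h : ZMod q, ‖fs A h‖ ^ 2 : ℝ) : ℂ) = (((q : ℝ) * coll A q : ℝ) : ℂ) := by
    rw [Complex.ofReal_sum]
    simp_rw [h1]
    rw [sum_comm]
    simp_rw [orth]
    rw [← sum_filter, sum_const, coll]
    have : (A ×ˢ A).filter (fun p => (p.1 : ZMod q) - (p.2 : ZMod q) = 0) =
        (A ×ˢ A).filter fun p => p.1 ≡ p.2 [MOD q] := by
      refine filter_congr fun p _ => ?_
      rw [sub_eq_zero, ZMod.natCast_eq_natCast_iff]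
    rw [this]
    simp [mul_comm]
  exact_mod_cast h2

theorem norm_fs_le (A : Finset ℕ) (h : ZMod q) : ‖fs A h‖ ≤ A.card := by
  refine (norm_sum_le _ _).trans ?_
  simp

theorem fs_zero (A : Finset ℕ) : fs A (0 : ZMod q) = A.card := by simp [fs]

theorem norm_fs_range_le (Y : ℕ) {h : ZMod q} (hh : h ≠ 0) :
    ‖fs (range Y) h‖ ≤ addOrderOf h := by
  set ζ : ℂ := ZMod.stdAddChar h with hζ
  have hζ1 : ζ ≠ 1 := by
    intro h1
    apply hh
    apply ZMod.injective_stdAddChar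
    rw [← hζ, h1, AddChar.map_zero_eq_one]
  have hpow : ∀ y : ℕ, ZMod.stdAddChar (h * (y : ZMod q)) = ζ ^ y := by
    intro y
    rw [hζ, ← AddChar.map_nsmul_eq_pow, nsmul_eq_mul, mul_comm]
  have hord : ζ ^ addOrderOf h = 1 := by
    rw [hζ, ← AddChar.map_nsmul_eq_pow, addOrderOf_nsmul_eq_zero, AddChar.map_zero_eq_one]
  have hpos : 0 < addOrderOf h := addOrderOf_pos h
  have h1 : fs (range Y) h = fs (range (Y % addOrderOf h)) h := by
    simp only [fs, hpow]
    rw [geom_sum_eq hζ1, geom_sum_eq hζ1, ← pow_eq_pow_mod Y hord]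
  rw [h1]
  refine (norm_fs_le _ _).trans ?_
  rw [card_range]
  exact_mod_cast (Nat.mod_lt _ hpos).le

theorem sq_sum_dil_le (S D : Finset ℕ) (h : ZMod q) :
    (∑ d ∈ D, ‖fs S (h * (d : ZMod q))‖) ^ 2 ≤
      (coll D (addOrderOf h) : ℝ) * ((q : ℝ) * coll S q) := by
  classical
  set m : ZMod q → ℕ := fun v => (D.filter fun d : ℕ => h * (d : ZMod q) = v).card with hm
  have h1 : ∑ d ∈ D, ‖fs S (h * (d : ZMod q))‖ = ∑ v : ZMod q, (m v : ℝ) * ‖fs S v‖ := by
    rw [← sum_fiberwise_of_maps_to (s := D) (t := univ) (g := fun d : ℕ => h * (d : ZMod q))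
      (fun _ _ => mem_univ _)]
    refine sum_congr rfl fun v _ => ?_
    rw [sum_congr rfl (g := fun _ => ‖fs S v‖)]
    · simp [hm]
    · intro d hd
      rw [(mem_filter.1 hd).2]
  have h2 : ∑ v : ZMod q, (m v : ℝ) ^ 2 = coll D (addOrderOf h) := by
    have : coll D (addOrderOf h) = ∑ v : ZMod q, (m v) ^ 2 := by
      rw [coll, card_eq_sum_card_fiberwise (f := fun p : ℕ × ℕ => h * (p.1 : ZMod q))
        (t := univ) (fun _ _ => mem_coe.2 (mem_univ _))]
      refine sum_congr rfl fun v _ => ?_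
      rw [hm, pow_two, ← card_product]
      congr 1
      ext ⟨d, d'⟩
      simp only [mem_filter, mem_product]
      rw [← nsmul_eq_nsmul_iff_modEq, nsmul_eq_mul, nsmul_eq_mul, mul_comm _ h, mul_comm _ h]
      constructor
      · rintro ⟨⟨⟨a1, a2⟩, a3⟩, a4⟩
        exact ⟨⟨a1, a4⟩, a2, a3 ▸ a4⟩
      · rintro ⟨⟨a1, a2⟩, a3, a4⟩
        exact ⟨⟨⟨a1, a3⟩, a2.trans a4.symm⟩, a2⟩
    rw [this]; push_cast; rfl
  rw [h1, ← h2, ← parseval]
  exact sum_mul_sq_le_sq_mul_sq _ _ _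

end

/-- The Fourier step: a modulus with few collisions divides a sum of the given shape. -/
theorem exists_dvd_of_coll {q K R Y : ℕ} (hq : 0 < q) (S D : Finset ℕ) (hS : S.Nonempty)
    (hD : D.Nonempty) (hK : 0 < K) (hY0 : 0 < Y)
    (h1 : q * coll S q ≤ K * S.card ^ 2)
    (h2 : ∀ q', q' ∣ q → R < q' → 4 * K ^ 3 * coll D q' ≤ D.card ^ 2)
    (hY : 2 * K * R ≤ Y) :
    ∃ s₁ ∈ S, ∃ s₂ ∈ S, ∃ s₃ ∈ S, ∃ d ∈ D, ∃ y < Y, q ∣ s₁ + s₂ + d * s₃ + y := by
  have : NeZero q := ⟨hq.ne'⟩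
  by_contra hno
  push Not at hno
  set g : ZMod q → ℂ := fun h => ∑ d ∈ D, fs S (h * (d : ZMod q)) with hg
  have hsum : ∑ h : ZMod q, fs S h * fs S h * g h * fs (range Y) h = 0 := by
    have : ∀ h : ZMod q, fs S h * fs S h * g h * fs (range Y) h =
        ∑ s₁ ∈ S, ∑ s₂ ∈ S, ∑ d ∈ D, ∑ s₃ ∈ S, ∑ y ∈ range Y,
          ZMod.stdAddChar (h * ((s₁ + s₂ + d * s₃ + y : ℕ) : ZMod q)) := by
      intro h
      simp only [hg, fs]
      rw [mul_assoc, mul_assoc, sum_mul]
      refine sum_congr rfl fun s₁ _ => ?_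
      rw [sum_mul, mul_sum]
      refine sum_congr rfl fun s₂ _ => ?_
      rw [sum_mul, mul_sum, mul_sum]
      refine sum_congr rfl fun d _ => ?_
      rw [sum_mul, mul_sum, mul_sum]
      refine sum_congr rfl fun s₃ _ => ?_
      rw [mul_sum, mul_sum, mul_sum]
      refine sum_congr rfl fun y _ => ?_
      rw [← AddChar.map_add_eq_mul, ← AddChar.map_add_eq_mul, ← AddChar.map_add_eq_mul]
      congr 1
      push_cast
      ring
    simp_rw [this]
    rw [sum_comm]
    refine sum_eq_zero fun s₁ hs₁ => ?_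
    rw [sum_comm]
    refine sum_eq_zero fun s₂ hs₂ => ?_
    rw [sum_comm]
    refine sum_eq_zero fun d hd => ?_
    rw [sum_comm]
    refine sum_eq_zero fun s₃ hs₃ => ?_
    rw [sum_comm]
    refine sum_eq_zero fun y hy => ?_
    rw [orth, if_neg]
    rw [ZMod.natCast_eq_zero_iff]
    exact hno s₁ hs₁ s₂ hs₂ s₃ hs₃ d hd y (mem_range.1 hy)
  have hSpos : (0 : ℝ) < S.card := by exact_mod_cast hS.card_pos
  have hDpos : (0 : ℝ) < D.card := by exact_mod_cast hD.card_pos
  have hKpos : (0 : ℝ) < K := by exact_mod_cast hK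
  have hYpos : (0 : ℝ) < Y := by exact_mod_cast hY0
  have h1' : (q : ℝ) * coll S q ≤ K * (S.card : ℝ) ^ 2 := by exact_mod_cast h1
  have hY' : 2 * (K : ℝ) * R ≤ Y := by exact_mod_cast hY
  have hgle : ∀ h : ZMod q, ‖g h‖ ≤ ∑ d ∈ D, ‖fs S (h * (d : ZMod q))‖ := fun h => norm_sum_le _ _
  have hbound : ∀ h : ZMod q, h ≠ 0 →
      ‖g h‖ * ‖fs (range Y) h‖ ≤ D.card * S.card * Y / (2 * K) := by
    intro h hh
    by_cases hR : R < addOrderOf h
    · have hdvd : addOrderOf h ∣ q := by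
        have := addOrderOf_dvd_card (x := h)
        rwa [ZMod.card] at this
      have h3 : 4 * (K : ℝ) ^ 3 * coll D (addOrderOf h) ≤ (D.card : ℝ) ^ 2 := by
        exact_mod_cast h2 _ hdvd hR
      have h4 := sq_sum_dil_le S D h
      have h5 : ‖g h‖ ≤ D.card * S.card / (2 * K) := by
        refine (hgle h).trans ?_
        refine abs_le_of_sq_le_sq' ?_ (by positivity) |>.2
        refine h4.trans ?_
        have h8 : (coll D (addOrderOf h) : ℝ) ≤ (D.card : ℝ) ^ 2 / (4 * (K : ℝ) ^ 3) := by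
          rw [le_div_iff₀ (by positivity)]; linarith
        calc _ ≤ ((D.card : ℝ) ^ 2 / (4 * (K : ℝ) ^ 3)) * (K * (S.card : ℝ) ^ 2) := by gcongr
          _ = _ := by field_simp; ring
      have h6 : ‖fs (range Y) h‖ ≤ Y := by simpa using norm_fs_le (range Y) h
      calc _ ≤ (D.card * S.card / (2 * K)) * (Y : ℝ) := by gcongr
        _ = _ := by ring
    · push Not at hR
      have h5 : ‖g h‖ ≤ D.card * S.card := by
        refine (hgle h).trans ?_
        refine (sum_le_sum fun d _ => norm_fs_le S _).trans ?_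
        simp
      have h6 : ‖fs (range Y) h‖ ≤ R := (norm_fs_range_le Y hh).trans (by exact_mod_cast hR)
      have h7 : (R : ℝ) ≤ Y / (2 * K) := by
        rw [le_div_iff₀ (by positivity)]; linarith
      calc _ ≤ (D.card * S.card : ℝ) * (Y / (2 * K)) := by gcongr; exact h6.trans h7
        _ = _ := by ring
  rw [← add_sum_erase _ _ (mem_univ (0 : ZMod q))] at hsum
  have hmain : fs S (0 : ZMod q) * fs S (0 : ZMod q) * g 0 * fs (range Y) (0 : ZMod q) =
      ((S.card * S.card * (D.card * S.card) * Y : ℝ) : ℂ) := by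
    simp [hg, fs_zero]
  rw [hmain, add_eq_zero_iff_eq_neg] at hsum
  have hnorm := congrArg norm hsum
  rw [norm_neg, Complex.norm_real, Real.norm_of_nonneg (by positivity)] at hnorm
  have hle : ‖∑ h ∈ univ.erase (0 : ZMod q), fs S h * fs S h * g h * fs (range Y) h‖ ≤
      (K * (S.card : ℝ) ^ 2) * (D.card * S.card * Y / (2 * K)) := by
    refine (norm_sum_le _ _).trans ?_
    calc _ ≤ ∑ h ∈ univ.erase (0 : ZMod q), ‖fs S h‖ ^ 2 * (D.card * S.card * Y / (2 * K)) := by
          refine sum_le_sum fun h hh => ?_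
          rw [norm_mul, norm_mul, norm_mul, mul_assoc, ← pow_two]
          gcongr
          exact hbound h (mem_erase.1 hh).1
      _ ≤ ∑ h : ZMod q, ‖fs S h‖ ^ 2 * (D.card * S.card * Y / (2 * K)) := by
          apply sum_le_sum_of_subset_of_nonneg (erase_subset _ _)
          intro _ _ _; positivity
      _ = ((q : ℝ) * coll S q) * (D.card * S.card * Y / (2 * K)) := by
          rw [← sum_mul, parseval]
      _ ≤ _ := by gcongr
  rw [← hnorm] at hle
  have : (K * (S.card : ℝ) ^ 2) * (D.card * S.card * Y / (2 * K)) =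
      (S.card * S.card * (D.card * S.card) * Y) / 2 := by
    field_simp
  rw [this] at hle
  have : (0 : ℝ) < S.card * S.card * (D.card * S.card) * Y := by positivity
  linarith

end Crest.Agent.R19
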