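import Mathlib
import Crest.Agent.R19.Fourier

set_option autoImplicit false

namespace Crest.Agent.R19

open Finset

theorem two_pow_omega_le {n : ℕ} (hn : n ≠ 0) : 2 ^ n.primeFactors.card ≤ n.divisors.card := by
  rw [Nat.card_divisors hn]
  apply pow_card_le_prod
  intro p hp
  have : n.factorization p ≠ 0 := by
    rwa [← Finsupp.mem_support_iff, Nat.support_factorization]
  omega

theorem card_primePow_le {N E : ℕ} (hN : N ≠ 0) (hE : N < 2 ^ E) :
    (N.divisors.filter IsPrimePow).card ≤ E := by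
  have h1 := ArithmeticFunction.vonMangoldt_sum (n := N)
  have h2 : ((N.divisors.filter IsPrimePow).card : ℝ) * Real.log 2 ≤ Real.log N := by
    rw [← h1, ← nsmul_eq_mul, ← sum_const]
    calc _ ≤ ∑ i ∈ N.divisors.filter IsPrimePow, ArithmeticFunction.vonMangoldt i := by
          refine sum_le_sum fun i hi => ?_
          have hi' := (mem_filter.1 hi).2
          rw [ArithmeticFunction.vonMangoldt_apply, if_pos hi']
          apply Real.log_le_log (by norm_num)
          exact_mod_cast (Nat.minFac_prime hi'.ne_one).two_le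
      _ ≤ _ := by
          apply sum_le_sum_of_subset_of_nonneg (filter_subset _ _)
          intro _ _ _; exact ArithmeticFunction.vonMangoldt_nonneg
  have h3 : Real.log N ≤ E * Real.log 2 := by
    rw [← Real.log_pow]
    apply Real.log_le_log (by exact_mod_cast Nat.pos_of_ne_zero hN)
    exact_mod_cast hE.le
  have h4 : 0 < Real.log 2 := Real.log_pos (by norm_num)
  have := le_of_mul_le_mul_right (h2.trans h3) h4
  exact_mod_cast this

theorem card_divisors_omega_le {N E : ℕ} (hN : N ≠ 0) (hE : N < 2 ^ E) (u : ℕ) :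
    (N.divisors.filter fun q => q.primeFactors.card ≤ u).card ≤ (E + 1) ^ u := by
  induction u with
  | zero =>
    rw [pow_zero, card_le_one]
    intro a ha b hb
    simp only [mem_filter, Nat.mem_divisors, nonpos_iff_eq_zero, card_eq_zero,
      Nat.primeFactors_eq_empty] at ha hb
    have ha0 : a ≠ 0 := fun h => hN (by subst h; simpa using ha.1.1)
    have hb0 : b ≠ 0 := fun h => hN (by subst h; simpa using hb.1.1)
    omega
  | succ u ih =>
    have hsub : (N.divisors.filter fun q => q.primeFactors.card ≤ u + 1) ⊆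
        image₂ (· * ·) (insert 1 (N.divisors.filter IsPrimePow))
          (N.divisors.filter fun q => q.primeFactors.card ≤ u) := by
      intro q hq
      rw [mem_filter, Nat.mem_divisors] at hq
      have hq0 : q ≠ 0 := fun h => hN (by subst h; simpa using hq.1.1)
      rw [mem_image₂]
      by_cases h1 : q = 1
      · refine ⟨1, mem_insert_self _ _, 1, ?_, by simp [h1]⟩
        simp [hN]
      · obtain ⟨p, hp, hpq⟩ := Nat.exists_prime_and_dvd h1
        have hmem : p ∈ q.primeFactors := Nat.mem_primeFactors.2 ⟨hp, hpq, hq0⟩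
        refine ⟨ordProj[p] q, ?_, ordCompl[p] q, ?_, Nat.ordProj_mul_ordCompl_eq_self q p⟩
        · apply mem_insert_of_mem
          rw [mem_filter, Nat.mem_divisors]
          refine ⟨⟨(Nat.ordProj_dvd q p).trans hq.1.1, hN⟩, ?_⟩
          apply IsPrimePow.pow hp.isPrimePow
          rwa [← Finsupp.mem_support_iff, Nat.support_factorization]
        · rw [mem_filter, Nat.mem_divisors]
          refine ⟨⟨(Nat.ordCompl_dvd q p).trans hq.1.1, hN⟩, ?_⟩
          rw [← Nat.support_factorization, Nat.factorization_ordCompl, Finsupp.support_erase,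
            Nat.support_factorization, card_erase_of_mem hmem]
          omega
    refine (card_le_card hsub).trans ((card_image₂_le _ _ _).trans ?_)
    rw [pow_succ, mul_comm]
    refine Nat.mul_le_mul ih ((card_insert_le _ _).trans ?_)
    have := card_primePow_le hN hE
    omega

/-- off-diagonal collisions -/
def coll' (A : Finset ℕ) (q : ℕ) : ℕ := (A.offDiag.filter fun p => p.1 ≡ p.2 [MOD q]).card

theorem coll_le (A : Finset ℕ) (q : ℕ) : coll A q ≤ A.card + coll' A q := by
  rw [coll, coll', ← diag_union_offDiag, filter_union]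
  refine (card_union_le _ _).trans ?_
  gcongr
  exact (card_filter_le _ _).trans (by rw [diag_card])

theorem sum_coll'_le {A Q : Finset ℕ} {E u : ℕ} (hA : ∀ s ∈ A, s < 2 ^ E)
    (hQ : ∀ q ∈ Q, q.primeFactors.card ≤ u) :
    ∑ q ∈ Q, coll' A q ≤ A.card ^ 2 * (E + 1) ^ u := by
  simp only [coll', card_filter]
  rw [sum_comm]
  calc _ ≤ ∑ p ∈ A.offDiag, (E + 1) ^ u := by
        refine sum_le_sum fun p hp => ?_
        rw [mem_offDiag] at hp
        rw [← card_filter]
        have hN : (Nat.dist p.1 p.2) ≠ 0 := fun h => hp.2.2 (Nat.eq_of_dist_eq_zero h)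
        have hE : Nat.dist p.1 p.2 < 2 ^ E := by
          have := hA _ hp.1
          have := hA _ hp.2.1
          unfold Nat.dist
          omega
        refine le_trans (card_le_card ?_) (card_divisors_omega_le hN hE u)
        intro q hq
        rw [mem_filter] at hq
        rw [mem_filter, Nat.mem_divisors]
        refine ⟨⟨?_, hN⟩, hQ q hq.1⟩
        rcases le_total p.1 p.2 with h | h
        · rw [Nat.dist_eq_sub_of_le h]
          exact (Nat.modEq_iff_dvd' h).1 hq.2
        · rw [Nat.dist_eq_sub_of_le_right h]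
          exact (Nat.modEq_iff_dvd' h).1 hq.2.symm
    _ ≤ _ := by
        rw [sum_const, smul_eq_mul, offDiag_card, pow_two]
        gcongr
        omega

theorem markov {A Q : Finset ℕ} {E u α β : ℕ} (hA0 : A.Nonempty) (hA : ∀ s ∈ A, s < 2 ^ E)
    (hQ : ∀ q ∈ Q, q.primeFactors.card ≤ u) (h : ∀ q ∈ Q, α * A.card ^ 2 ≤ β * coll' A q) :
    α * Q.card ≤ β * (E + 1) ^ u := by
  have h1 := sum_coll'_le hA hQ
  have h2 : ∑ q ∈ Q, α * A.card ^ 2 ≤ ∑ q ∈ Q, β * coll' A q := sum_le_sum h
  rw [sum_const, smul_eq_mul, ← mul_sum] at h2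
  have h3 : 0 < A.card ^ 2 := pow_pos hA0.card_pos 2
  apply Nat.le_of_mul_le_mul_right _ h3
  calc α * Q.card * A.card ^ 2 = Q.card * (α * A.card ^ 2) := by ring
    _ ≤ β * ∑ q ∈ Q, coll' A q := h2
    _ ≤ β * (A.card ^ 2 * (E + 1) ^ u) := by gcongr
    _ = _ := by ring

theorem sum_card_divisors_le (X : ℕ) :
    ((∑ q ∈ Ioc 0 X, q.divisors.card : ℕ) : ℝ) ≤ X * (1 + Real.log X) := by
  have h1 := ArithmeticFunction.sum_Ioc_sigma0_eq_sum_div X
  simp only [ArithmeticFunction.sigma_zero_apply] at h1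
  rw [h1]
  have h2 := harmonic_le_one_add_log X
  rw [harmonic_eq_sum_Icc] at h2
  push_cast at h2 ⊢
  calc _ ≤ ∑ n ∈ Ioc 0 X, (X : ℝ) * (n : ℝ)⁻¹ := by
        refine sum_le_sum fun n _ => ?_
        rw [← div_eq_mul_inv]
        exact Nat.cast_div_le
    _ = X * ∑ n ∈ Icc 1 X, (n : ℝ)⁻¹ := by
        rw [mul_sum]; rfl
    _ ≤ _ := by gcongr

/-- The good moduli. -/
def Good (S D : Finset ℕ) (K q : ℕ) : Prop :=
  q * coll S q ≤ K * S.card ^ 2 ∧
    ∀ q', q' ∣ q → 4 * K ^ 4 < q' → 4 * K ^ 3 * coll D q' ≤ D.card ^ 2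

open Classical in
theorem card_bad_le {S D : Finset ℕ} {X E u K : ℕ} (hS0 : S.Nonempty) (hD0 : D.Nonempty)
    (hS : ∀ s ∈ S, s < 2 ^ E) (hD : ∀ s ∈ D, s < 2 ^ E) (hX : X ≤ S.card)
    (hK : 20 * (E + 1) ^ u ≤ K) (hDK : 8 * K ^ 3 ≤ D.card)
    (hu : 10 * (1 + Real.log X) ≤ 2 ^ u) :
    10 * ((Ioc 0 X).filter fun q => ¬ Good S D K q).card ≤ 3 * X := by
  set H := (E + 1) ^ u with hH
  have hH0 : 0 < H := by positivity
  set B1 := (Ioc 0 X).filter fun q => u < q.primeFactors.card with hB1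
  set B2 := (Ioc 0 X).filter fun q => q.primeFactors.card ≤ u ∧ K * S.card ^ 2 < q * coll S q
    with hB2
  set B3' := (Ioc 0 X).filter fun q => q.primeFactors.card ≤ u ∧ 4 * K ^ 4 < q ∧
    D.card ^ 2 < 4 * K ^ 3 * coll D q with hB3'
  set B3 := B3'.biUnion fun q' => (Ioc 0 X).filter fun q => q' ∣ q with hB3
  have hsub : ((Ioc 0 X).filter fun q => ¬ Good S D K q) ⊆ B1 ∪ B2 ∪ B3 := by
    intro q hq
    rw [mem_filter] at hq
    obtain ⟨hq1, hq2⟩ := hq
    have hq1' := mem_Ioc.1 hq1
    simp only [mem_union]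
    by_cases h1 : u < q.primeFactors.card
    · exact Or.inl (Or.inl (mem_filter.2 ⟨hq1, h1⟩))
    push Not at h1
    by_cases h2 : K * S.card ^ 2 < q * coll S q
    · exact Or.inl (Or.inr (mem_filter.2 ⟨hq1, h1, h2⟩))
    push Not at h2
    right
    unfold Good at hq2
    push Not at hq2
    obtain ⟨q', a1, a2, a3⟩ := hq2 h2
    refine mem_biUnion.2 ⟨q', mem_filter.2 ⟨?_, ?_, a2, a3⟩, mem_filter.2 ⟨hq1, a1⟩⟩
    · rw [mem_Ioc]
      exact ⟨by omega, (Nat.le_of_dvd hq1'.1 a1).trans hq1'.2⟩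
    · exact (card_le_card (Nat.primeFactors_mono a1 (by omega))).trans h1
  have c1 : 10 * B1.card ≤ X := by
    have h1 : B1.card * 2 ^ u ≤ ∑ q ∈ Ioc 0 X, q.divisors.card := by
      calc _ = ∑ q ∈ B1, 2 ^ u := by rw [sum_const, smul_eq_mul]
        _ ≤ ∑ q ∈ B1, q.divisors.card := by
          refine sum_le_sum fun q hq => ?_
          rw [mem_filter, mem_Ioc] at hq
          exact (Nat.pow_le_pow_right (by norm_num) hq.2.le).trans (two_pow_omega_le (by omega))
        _ ≤ _ := sum_le_sum_of_subset (filter_subset _ _)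
    have h2 := sum_card_divisors_le X
    have h3 : ((B1.card * 2 ^ u : ℕ) : ℝ) ≤ X * (1 + Real.log X) := le_trans (by exact_mod_cast h1) h2
    push_cast at h3
    have h4 : (0 : ℝ) < 2 ^ u := by positivity
    have h5 : (10 * B1.card : ℝ) * 2 ^ u ≤ X * 2 ^ u := by
      have : (0 : ℝ) ≤ X := by positivity
      nlinarith
    exact_mod_cast le_of_mul_le_mul_right h5 h4
  have c2 : 10 * B2.card ≤ X := by
    have h1 : K * B2.card ≤ (2 * X) * H := by
      apply markov hS0 hS
      · intro q hq; exact (mem_filter.1 hq).2.1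
      · intro q hq
        rw [mem_filter, mem_Ioc] at hq
        have a1 := coll_le S q
        have a2 : q * coll S q ≤ X * (S.card + coll' S q) := Nat.mul_le_mul hq.1.2 a1
        have a3 : X * S.card ≤ S.card ^ 2 := by rw [pow_two]; exact Nat.mul_le_mul_right _ hX
        have a4 : 2 * S.card ^ 2 ≤ K * S.card ^ 2 := Nat.mul_le_mul_right _ (by omega)
        have a5 := hq.2.2
        nlinarith
    have h2 : 20 * H * B2.card ≤ K * B2.card := Nat.mul_le_mul_right _ hK
    apply Nat.le_of_mul_le_mul_right _ hH0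
    nlinarith
  have c3 : 10 * B3.card ≤ X := by
    have h1 : 1 * B3'.card ≤ (8 * K ^ 3) * H := by
      apply markov hD0 hD
      · intro q hq; exact (mem_filter.1 hq).2.1
      · intro q hq
        rw [mem_filter, mem_Ioc] at hq
        have a1 := coll_le D q
        have a2 : 4 * K ^ 3 * coll D q ≤ 4 * K ^ 3 * (D.card + coll' D q) :=
          Nat.mul_le_mul_left _ a1
        have a3 : 8 * K ^ 3 * D.card ≤ D.card ^ 2 := by
          rw [pow_two]; exact Nat.mul_le_mul_right _ hDK
        have a5 := hq.2.2.2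
        nlinarith
    have h2 : B3.card ≤ B3'.card * (X / (4 * K ^ 4)) := by
      apply card_biUnion_le_card_mul
      intro q' hq'
      rw [Nat.Ioc_filter_dvd_card_eq_div]
      have hK0 : 0 < K := by omega
      exact Nat.div_le_div_left (mem_filter.1 hq').2.2.1.le (by positivity)
    have h3 : 4 * K ^ 4 * (X / (4 * K ^ 4)) ≤ X := Nat.mul_div_le _ _
    have h4 : 10 * (8 * K ^ 3 * H) ≤ 4 * K ^ 4 := by
      have : 4 * K ^ 3 * (20 * H) ≤ 4 * K ^ 3 * K := Nat.mul_le_mul_left _ hK
      calc _ = 4 * K ^ 3 * (20 * H) := by ring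
        _ ≤ 4 * K ^ 3 * K := this
        _ = _ := by ring
    calc 10 * B3.card ≤ 10 * (B3'.card * (X / (4 * K ^ 4))) := by gcongr
      _ = (10 * B3'.card) * (X / (4 * K ^ 4)) := by ring
      _ ≤ (4 * K ^ 4) * (X / (4 * K ^ 4)) := Nat.mul_le_mul_right _ (by linarith)
      _ ≤ X := h3
  have := (card_le_card hsub).trans ((card_union_le _ _).trans
    (Nat.add_le_add_right (card_union_le _ _) _))
  omega

theorem exists_good_pair {S D : Finset ℕ} {X E u K : ℕ} (hS0 : S.Nonempty) (hD0 : D.Nonempty)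
    (hS : ∀ s ∈ S, s < 2 ^ E) (hD : ∀ s ∈ D, s < 2 ^ E) (hX : X ≤ S.card) (hX3 : 3 ≤ X)
    (hK : 20 * (E + 1) ^ u ≤ K) (hDK : 8 * K ^ 3 ≤ D.card)
    (hu : 10 * (1 + Real.log X) ≤ 2 ^ u) :
    ∃ q₁ q₂, 0 < q₁ ∧ 0 < q₂ ∧ q₁ + q₂ = X ∧ Good S D K q₁ ∧ Good S D K q₂ := by
  classical
  have hb := card_bad_le hS0 hD0 hS hD hX hK hDK hu
  set B := (Ioc 0 X).filter fun q => ¬ Good S D K q with hB
  by_contra hno
  push Not at hno
  have hsub : Ioo 0 X ⊆ B ∪ B.image (fun q => X - q) := by
    intro q hq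
    rw [mem_Ioo] at hq
    rw [mem_union]
    by_cases h1 : Good S D K q
    · right
      refine mem_image.2 ⟨X - q, mem_filter.2 ⟨mem_Ioc.2 ⟨by omega, by omega⟩, ?_⟩, by omega⟩
      exact hno q (X - q) hq.1 (by omega) (by omega) h1
    · left
      exact mem_filter.2 ⟨mem_Ioc.2 ⟨hq.1, hq.2.le⟩, h1⟩
  have := (card_le_card hsub).trans ((card_union_le _ _).trans
    (Nat.add_le_add_left card_image_le _))
  rw [Nat.card_Ioo] at this
  omega

end Crest.Agent.R19
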