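import Mathlib

set_option autoImplicit false

namespace Crest.Agent.R19

/-- `r` is a sum of at most `k` unit fractions (repetitions allowed). -/
def Short (r : ℚ) (k : ℕ) : Prop :=
  ∃ l : Multiset ℕ, l.card ≤ k ∧ (∀ n ∈ l, 0 < n) ∧ (l.map fun n : ℕ => (1 : ℚ) / n).sum = r

theorem Short.zero (k : ℕ) : Short 0 k := ⟨0, by simp, by simp, by simp⟩

theorem Short.mono {r : ℚ} {k k' : ℕ} (h : Short r k) (hk : k ≤ k') : Short r k' := by
  obtain ⟨l, h1, h2, h3⟩ := h
  exact ⟨l, h1.trans hk, h2, h3⟩

theorem Short.add {r r' : ℚ} {k k' : ℕ} (h : Short r k) (h' : Short r' k') :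
    Short (r + r') (k + k') := by
  obtain ⟨l, h1, h2, h3⟩ := h
  obtain ⟨l', h1', h2', h3'⟩ := h'
  refine ⟨l + l', by simp; omega, ?_, by simp only [Multiset.map_add, Multiset.sum_add, h3, h3']⟩
  intro n hn
  rcases Multiset.mem_add.1 hn with h | h
  · exact h2 n h
  · exact h2' n h

theorem Short.unit {n : ℕ} (hn : 0 < n) : Short (1 / n) 1 :=
  ⟨{n}, by simp, by simpa using hn, by simp⟩

theorem sum_unit_nonneg (l : Multiset ℕ) : 0 ≤ (l.map fun n : ℕ => (1 : ℚ) / n).sum := by
  apply Multiset.sum_nonneg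
  intro x hx
  obtain ⟨n, _, rfl⟩ := Multiset.mem_map.1 hx
  positivity

theorem Short.nonneg {r : ℚ} {k : ℕ} (h : Short r k) : 0 ≤ r := by
  obtain ⟨l, _, _, h3⟩ := h
  rw [← h3]; exact sum_unit_nonneg l

/-- A short sum of unit fractions below one can be made distinct. -/
theorem Short.distinct : ∀ (k : ℕ) (r : ℚ), r < 1 → Short r k →
    ∃ S : Finset ℕ, S.card ≤ k ∧ (∀ n ∈ S, 2 ≤ n) ∧ ∑ n ∈ S, (1 : ℚ) / n = r := by
  intro k
  induction k with
  | zero =>
    intro r _ h
    obtain ⟨l, h1, _, h3⟩ := h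
    have : l = 0 := by simpa using h1
    subst this
    exact ⟨∅, by simp, by simp, by simpa using h3⟩
  | succ k ih =>
    intro r hr h
    by_cases hex : ∃ m : ℕ, 0 < m ∧ Short (r - 1 / m) k
    · classical
      let m := Nat.find hex
      have hm : 0 < m ∧ Short (r - 1 / m) k := Nat.find_spec hex
      have hmin : ∀ m' < m, ¬ (0 < m' ∧ Short (r - 1 / (m' : ℕ)) k) := fun m' h' => Nat.find_min hex h'
      have hmpos : (0 : ℚ) < m := by exact_mod_cast hm.1
      have hm2 : 2 ≤ m := by
        by_contra hlt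
        have h1 : m = 1 := by have := hm.1; omega
        have := hm.2.nonneg
        rw [h1] at this
        simp at this
        linarith
      obtain ⟨S, hS1, hS2, hS3⟩ := ih (r - 1 / m) (by have : (0:ℚ) < 1 / m := by positivity
                                                      linarith) hm.2
      have hmS : m ∉ S := by
        intro hmem
        have hk : 1 ≤ k := le_trans (Finset.card_pos.2 ⟨m, hmem⟩) hS1
        have hrest : Short (r - 1 / m - 1 / m) (k - 1) := by
          refine ⟨(S.erase m).val, ?_, ?_, ?_⟩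
          · have := Finset.card_erase_of_mem hmem
            simp only [Finset.card_val]
            omega
          · intro n hn
            have := hS2 n (Finset.mem_of_mem_erase hn)
            omega
          · have := Finset.add_sum_erase S (fun n : ℕ => (1 : ℚ) / n) hmem
            change ∑ n ∈ S.erase m, (1 : ℚ) / n = _
            linarith
        rcases Nat.even_or_odd' m with ⟨t, ht | ht⟩
        · apply hmin t (by omega)
          refine ⟨by omega, ?_⟩
          have ht0 : (0 : ℚ) < t := by exact_mod_cast (show 0 < t by omega)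
          have : r - 1 / (t : ℚ) = r - 1 / m - 1 / m := by
            rw [ht]; push_cast; field_simp; ring
          rw [this]
          exact hrest.mono (by omega)
        · apply hmin (t + 1) (by omega)
          refine ⟨by omega, ?_⟩
          have h2 := hrest.add (Short.unit (n := m * (t + 1)) (by positivity))
          have : r - 1 / ((t + 1 : ℕ) : ℚ) = r - 1 / m - 1 / m + 1 / ((m * (t + 1) : ℕ) : ℚ) := by
            rw [ht]; push_cast; field_simp; ring
          rw [this]
          exact h2.mono (by omega)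
      refine ⟨insert m S, ?_, ?_, ?_⟩
      · rw [Finset.card_insert_of_notMem hmS]; omega
      · intro n hn
        rcases Finset.mem_insert.1 hn with h | h
        · omega
        · exact hS2 n h
      · rw [Finset.sum_insert hmS, hS3]; ring
    · obtain ⟨l, h1, h2, h3⟩ := h
      have : l = 0 := by
        by_contra hne
        obtain ⟨m, hm⟩ := Multiset.exists_mem_of_ne_zero hne
        apply hex
        obtain ⟨l', rfl⟩ := Multiset.exists_cons_of_mem hm
        refine ⟨m, h2 m hm, l', ?_, ?_, ?_⟩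
        · simp at h1; omega
        · intro n hn; exact h2 n (Multiset.mem_cons_of_mem hn)
        · simp only [Multiset.map_cons, Multiset.sum_cons] at h3
          linarith
      subst this
      exact ⟨∅, by simp, by simp, by simpa using h3⟩

/-- `σ` is a sum of at most `k` divisors of `M`. -/
def SumDiv (M k σ : ℕ) : Prop :=
  ∃ l : Multiset ℕ, l.card ≤ k ∧ (∀ e ∈ l, e ∣ M) ∧ l.sum = σ

theorem SumDiv.zero (M k : ℕ) : SumDiv M k 0 := ⟨0, by simp, by simp, by simp⟩

theorem SumDiv.single {M e : ℕ} (h : e ∣ M) : SumDiv M 1 e := ⟨{e}, by simp, by simpa using h, by simp⟩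

theorem SumDiv.mono {M M' k k' σ : ℕ} (h : SumDiv M k σ) (hM : M ∣ M') (hk : k ≤ k') :
    SumDiv M' k' σ := by
  obtain ⟨l, h1, h2, h3⟩ := h
  exact ⟨l, h1.trans hk, fun e he => (h2 e he).trans hM, h3⟩

theorem SumDiv.add {M k k' σ σ' : ℕ} (h : SumDiv M k σ) (h' : SumDiv M k' σ') :
    SumDiv M (k + k') (σ + σ') := by
  obtain ⟨l, h1, h2, h3⟩ := h
  obtain ⟨l', h1', h2', h3'⟩ := h'
  refine ⟨l + l', by simp; omega, ?_, by simp [h3, h3']⟩
  intro n hn
  rcases Multiset.mem_add.1 hn with h | h
  · exact h2 n h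
  · exact h2' n h

theorem SumDiv.mul {M k σ : ℕ} (h : SumDiv M k σ) (d : ℕ) : SumDiv (d * M) k (d * σ) := by
  obtain ⟨l, h1, h2, h3⟩ := h
  refine ⟨l.map (d * ·), by simpa using h1, ?_, ?_⟩
  · intro e he
    obtain ⟨n, hn, rfl⟩ := Multiset.mem_map.1 he
    exact Nat.mul_dvd_mul_left d (h2 n hn)
  · rw [Multiset.sum_map_mul_left]; simp [h3]

theorem SumDiv.short {M k σ q : ℕ} (h : SumDiv M k σ) (hM : 0 < M) (hσ : 0 < σ) (hq : q ∣ σ) :
    Short ((q : ℚ) / M) k := by
  obtain ⟨l, h1, h2, h3⟩ := h
  obtain ⟨t, ht⟩ := hq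
  have ht0 : 0 < t := by
    rcases Nat.eq_zero_or_pos t with h | h
    · subst h; omega
    · exact h
  refine ⟨l.map (fun e => t * (M / e)), by simpa using h1, ?_, ?_⟩
  · intro n hn
    obtain ⟨e, he, rfl⟩ := Multiset.mem_map.1 hn
    have hd := h2 e he
    have he0 : 0 < e := Nat.pos_of_dvd_of_pos hd hM
    exact Nat.mul_pos ht0 (Nat.div_pos (Nat.le_of_dvd hM hd) he0)
  · rw [Multiset.map_map]
    have : (l.map ((fun n : ℕ => (1 : ℚ) / n) ∘ fun e => t * (M / e))) =
        l.map (fun e : ℕ => (e : ℚ) * (1 / (t * M))) := by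
      apply Multiset.map_congr rfl
      intro e he
      have hd := h2 e he
      have he0 : 0 < e := Nat.pos_of_dvd_of_pos hd hM
      obtain ⟨c, hc⟩ := hd
      have hc0 : 0 < c := by
        rcases Nat.eq_zero_or_pos c with h | h
        · subst h; omega
        · exact h
      simp only [Function.comp]
      rw [hc, Nat.mul_div_cancel_left _ he0]
      push_cast
      field_simp
    rw [this, Multiset.sum_map_mul_right]
    have h4 : (l.map fun e : ℕ => (e : ℚ)).sum = (σ : ℚ) := by
      rw [← h3, Nat.cast_multiset_sum]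
    rw [h4, ht]
    push_cast
    field_simp

/-- Digit expansions: every `y < z ^ k` is a sum of `k` divisors of `T * z ^ k`. -/
theorem sumDiv_digits {T z : ℕ} (hz : 0 < z) (hT : ∀ c, 0 < c → c < z → c ∣ T) :
    ∀ k y, y < z ^ k → SumDiv (T * z ^ k) k y := by
  intro k
  induction k with
  | zero =>
    intro y hy
    have : y = 0 := by simpa using hy
    subst this
    exact SumDiv.zero _ _
  | succ k ih =>
    intro y hy
    have h1 : y / z < z ^ k := by
      rw [Nat.div_lt_iff_lt_mul hz]; rwa [pow_succ] at hy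
    have h2 := (ih _ h1).mul z
    have h3 : SumDiv (T * z ^ (k + 1)) 1 (y % z) := by
      rcases Nat.eq_zero_or_pos (y % z) with h | h
      · rw [h]; exact SumDiv.zero _ _
      · exact SumDiv.single ((hT _ h (Nat.mod_lt _ hz)).trans (Dvd.intro _ rfl))
    have h4 : z * (T * z ^ k) = T * z ^ (k + 1) := by ring
    rw [h4] at h2
    have := h2.add h3
    rwa [Nat.div_add_mod] at this

/-- One greedy step. -/
theorem greedy_step {b x P : ℕ} (hb : 2 ≤ b) (hx : x < b) (hP : 0 < P) :
    ∃ n x' : ℕ, x' ≤ x ∧ P < n ∧ n ≤ b * P ∧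
      Short ((x : ℚ) / (b * P : ℕ) - (x' : ℚ) / (b * (P * n) : ℕ)) 1 := by
  rcases Nat.eq_zero_or_pos x with h0 | hx0
  · subst h0
    refine ⟨P + 1, 0, le_rfl, by omega, by nlinarith, ?_⟩
    simpa using Short.zero 1
  · set B := b * P with hB
    have hB0 : 0 < B := by positivity
    -- n = ceil (B / x)
    obtain ⟨n, hn1, hn2⟩ : ∃ n, B ≤ x * n ∧ x * n < B + x := by
      refine ⟨(B + x - 1) / x, ?_, ?_⟩
      · have := Nat.div_add_mod (B + x - 1) x
        have := Nat.mod_lt (B + x - 1) hx0
        omega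
      · have := Nat.mul_div_le (B + x - 1) x
        omega
    have hPn : P < n := by
      by_contra hle
      push Not at hle
      have : x * n ≤ x * P := Nat.mul_le_mul_left _ hle
      have : x * P < b * P := Nat.mul_lt_mul_of_pos_right hx hP
      omega
    have hnB : n ≤ B := by
      by_contra hlt
      push Not at hlt
      have : x * (B + 1) ≤ x * n := Nat.mul_le_mul_left _ hlt
      have : B ≤ x * B := Nat.le_mul_of_pos_left _ hx0
      nlinarith
    refine ⟨n, x * n - B, by omega, hPn, hnB, ?_⟩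
    have hn0 : 0 < n := by omega
    have : (x : ℚ) / (B : ℕ) - ((x * n - B : ℕ) : ℚ) / (b * (P * n) : ℕ) = 1 / n := by
      rw [Nat.cast_sub hn1, ← mul_assoc, ← hB]
      push_cast
      field_simp
      ring
    rw [this]
    exact Short.unit hn0

/-- First greedy stage: make the cofactor `P` large. -/
theorem greedy_stage1 {a b : ℕ} (hb : 2 ≤ b) (ha : a < b) :
    ∀ i : ℕ, ∃ x P : ℕ, x ≤ a ∧ 0 < P ∧ 2 ^ 2 ^ i ≤ P * P + P ∧ b * P ≤ b ^ 2 ^ i ∧
      Short ((a : ℚ) / b - (x : ℚ) / (b * P : ℕ)) i := by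
  intro i
  induction i with
  | zero => exact ⟨a, 1, le_rfl, one_pos, by simp, by simp, by simpa using Short.zero 0⟩
  | succ i ih =>
    obtain ⟨x, P, h1, h2, h3, h4, h5⟩ := ih
    obtain ⟨n, x', g1, g2, g3, g4⟩ := greedy_step hb (lt_of_le_of_lt h1 ha) h2
    have hPn : P * P + P ≤ P * n := by nlinarith
    refine ⟨x', P * n, g1.trans h1, Nat.mul_pos h2 (by omega), ?_, ?_, ?_⟩
    · rw [pow_succ, pow_mul, pow_two]
      have : 2 ^ 2 ^ i ≤ P * n := h3.trans hPn
      have := Nat.mul_le_mul this this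
      omega
    · rw [pow_succ, pow_mul, pow_two, ← mul_assoc]
      exact Nat.mul_le_mul h4 (g3.trans h4)
    · have := h5.add g4
      convert this using 1
      ring

/-- Second greedy stage: build a large set of short sums of divisors. -/
theorem greedy_stage2 {a b T j : ℕ} (hb : 2 ≤ b) (ha : a < b) (hT : 0 < T)
    (hj : (T + 1) * (T + 1) + (T + 1) ≤ 2 ^ 2 ^ j) :
    ∀ i : ℕ, ∃ (x P : ℕ) (S : Finset ℕ), x ≤ a ∧ T < P ∧ b * P ≤ b ^ 2 ^ (j + i) ∧
      Short ((a : ℚ) / b - (x : ℚ) / (b * P : ℕ)) (j + i) ∧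
      S.card = T.divisors.card ^ i ∧ ∀ s ∈ S, 0 < s ∧ s < P ∧ SumDiv (T * P) (i + 1) s := by
  intro i
  induction i with
  | zero =>
    obtain ⟨x, P, h1, h2, h3, h4, h5⟩ := greedy_stage1 hb ha j
    have hTP : T < P := by
      by_contra hle
      push Not at hle
      have := Nat.mul_le_mul hle hle
      nlinarith
    refine ⟨x, P, {1}, h1, hTP, by simpa using h4, by simpa using h5, by simp, ?_⟩
    intro s hs
    rw [Finset.mem_singleton] at hs
    subst hs
    exact ⟨one_pos, by omega, SumDiv.single (one_dvd _)⟩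
  | succ i ih =>
    classical
    obtain ⟨x, P, S, h1, h2, h4, h5, h6, h7⟩ := ih
    have hP : 0 < P := by omega
    obtain ⟨n, x', g1, g2, g3, g4⟩ := greedy_step hb (lt_of_le_of_lt h1 ha) hP
    refine ⟨x', P * n, (S ×ˢ T.divisors).image (fun p => p.1 + p.2 * P), g1.trans h1, ?_, ?_, ?_, ?_, ?_⟩
    · nlinarith
    · rw [← add_assoc, pow_succ, pow_mul, pow_two, ← mul_assoc]
      exact Nat.mul_le_mul h4 (g3.trans h4)
    · have := h5.add g4
      rw [← add_assoc]
      convert this using 1
      ring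
    · rw [Finset.card_image_of_injOn, Finset.card_product, h6, pow_succ]
      rintro ⟨s, d⟩ hp ⟨s', d'⟩ hp' hpp
      simp only [Finset.coe_product, Set.mem_prod, Finset.mem_coe] at hp hp'
      have hs := (h7 s hp.1).2.1
      have hs' := (h7 s' hp'.1).2.1
      simp only at hpp
      have e1 : (s + d * P) % P = (s' + d' * P) % P := by rw [hpp]
      rw [Nat.add_mul_mod_self_right, Nat.add_mul_mod_self_right, Nat.mod_eq_of_lt hs,
        Nat.mod_eq_of_lt hs'] at e1
      subst e1
      have e2 : d * P = d' * P := by omega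
      have := Nat.eq_of_mul_eq_mul_right hP e2
      subst this
      rfl
    · intro s hs
      obtain ⟨⟨s0, d⟩, hp, rfl⟩ := Finset.mem_image.1 hs
      rw [Finset.mem_product] at hp
      obtain ⟨k1, k2, k3⟩ := h7 s0 hp.1
      have hd : d ∣ T := Nat.dvd_of_mem_divisors hp.2
      have hdT : d ≤ T := Nat.le_of_dvd hT hd
      refine ⟨by simp only; omega, ?_, ?_⟩
      · simp only
        have : d * P ≤ T * P := Nat.mul_le_mul_right _ hdT
        nlinarith
      · simp only
        have k4 : SumDiv (T * (P * n)) (i + 1) s0 :=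
          k3.mono (Nat.mul_dvd_mul_left _ (Dvd.intro _ rfl)) le_rfl
        have k5 : SumDiv (T * (P * n)) 1 (d * P) :=
          SumDiv.single (Nat.mul_dvd_mul hd (Dvd.intro _ rfl))
        exact k4.add k5

end Crest.Agent.R19
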