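import Mathlib
import Crest.Agent.R19.Short
import Crest.Agent.R19.Count

set_option autoImplicit false

namespace Crest.Agent.R19

open Finset

theorem lcmUpto_le (y : ℕ) : Nat.lcmUpto y ≤ 2 ^ (8 * y) := by
  have h1 := Chebyshev.psi_le_const_mul_self (x := (y : ℝ)) (by positivity)
  rw [Chebyshev.psi_eq_log_lcmUpto] at h1
  have h2 : Real.log 4 = 2 * Real.log 2 := by
    rw [show (4 : ℝ) = 2 ^ 2 by norm_num, Real.log_pow]; norm_num
  have h3 := Real.log_two_gt_d9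
  have h4 : Real.log (Nat.lcmUpto y) ≤ Real.log ((2 : ℝ) ^ (8 * y)) := by
    rw [Real.log_pow]
    push_cast
    have : (0 : ℝ) ≤ y := by positivity
    nlinarith
  rw [Real.log_le_log_iff (by exact_mod_cast Nat.lcmUpto_pos y) (by positivity)] at h4
  exact_mod_cast h4

theorem lcmUpto_le_pow {y : ℕ} (hy : y ≠ 0) :
    Nat.lcmUpto y ≤ y ^ (Nat.lcmUpto y).primeFactors.card := by
  rw [Nat.primeFactors_lcmUpto]
  conv_lhs => rw [Nat.lcmUpto_eq_prod_pow_log]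
  apply prod_le_pow_card
  intro p _
  exact Nat.pow_log_le_self p hy

theorem omega_lcmUpto {l : ℕ} (hl : 8 ≤ l) :
    2 ^ l ≤ 3 * l * (Nat.lcmUpto (2 ^ l)).primeFactors.card := by
  set w := (Nat.lcmUpto (2 ^ l)).primeFactors.card with hw
  have h1 := Chebyshev.two_pow_le_mul_lcmUpto (2 ^ l)
  have h2 := lcmUpto_le_pow (y := 2 ^ l) (by positivity)
  rw [← hw, ← pow_mul] at h2
  have h3 : 2 ^ l + 1 ≤ 2 ^ (l + 1) := by
    have : 0 < 2 ^ l := by positivity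
    rw [pow_succ]; omega
  have h4 : 2 ^ 2 ^ l ≤ 2 ^ (l + 1 + l * w) := by
    rw [pow_add]
    exact h1.trans (Nat.mul_le_mul h3 h2)
  have h5 : 2 ^ l ≤ l + 1 + l * w := (Nat.pow_le_pow_iff_right (by norm_num)).1 h4
  have h6 : l + 1 < 2 ^ l := by
    have := Nat.lt_two_pow_self (n := l - 1)
    have e : 2 ^ l = 2 * 2 ^ (l - 1) := by
      rw [← pow_succ']; congr 1; omega
    omega
  have h7 : 1 ≤ w := by
    rcases Nat.eq_zero_or_pos w with h | h
    · rw [h] at h5; omega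
    · exact h
  nlinarith

theorem dvd_lcmUpto {y c : ℕ} (h0 : 0 < c) (h1 : c < y) : c ∣ Nat.lcmUpto y :=
  Finset.dvd_lcm (f := id) (mem_Icc.2 ⟨h0, h1.le⟩)

theorem short_main {l a b : ℕ} (hl : 8 ≤ l) (hl2 : 2000 * l ^ 3 ≤ 2 ^ l) (hb2 : 2 ≤ b)
    (hb : b ≤ 2 ^ 2 ^ l) (ha : a < b) : Short ((a : ℚ) / b) (1600 * l) := by
  set y := 2 ^ l with hy
  set T₁ := Nat.lcmUpto y with hT₁
  have hT₁pos : 0 < T₁ := Nat.lcmUpto_pos y
  have F1 : T₁ ≤ 2 ^ (8 * y) := lcmUpto_le y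
  have F2 : y ≤ 3 * l * T₁.primeFactors.card := omega_lcmUpto hl
  set w := T₁.primeFactors.card with hw
  have F3 : 2 ^ w ≤ T₁.divisors.card := two_pow_omega_le hT₁pos.ne'
  have hypos : 0 < y := by positivity
  have hj : (T₁ + 1) * (T₁ + 1) + (T₁ + 1) ≤ 2 ^ 2 ^ (l + 5) := by
    have e : 2 ^ 2 ^ (l + 5) = (2 ^ (8 * y)) ^ 4 := by
      rw [← pow_mul, pow_add, ← hy]; congr 1; ring
    rw [e]
    have h2 : 2 ≤ 2 ^ (8 * y) := by
      calc 2 = 2 ^ 1 := by norm_num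
        _ ≤ _ := Nat.pow_le_pow_right (by norm_num) (by omega)
    generalize 2 ^ (8 * y) = W at *
    have h3 : (T₁ + 1) * (T₁ + 1) ≤ (W + 1) * (W + 1) := Nat.mul_le_mul (by omega) (by omega)
    have h4 : 4 * (W * W) ≤ W ^ 4 := by
      have : 2 * 2 ≤ W * W := Nat.mul_le_mul h2 h2
      calc 4 * (W * W) ≤ (W * W) * (W * W) := Nat.mul_le_mul_right _ this
        _ = _ := by ring
    nlinarith
  obtain ⟨x, P, S, h1, h2, h3, h4, h5, h6⟩ := greedy_stage2 hb2 ha hT₁pos hj (54 * l)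
  rcases Nat.eq_zero_or_pos x with hx0 | hx0
  · subst hx0
    simp only [Nat.cast_zero, zero_div, sub_zero] at h4
    exact h4.mono (by omega)
  have hP : 0 < P := by omega
  set Y := y ^ (600 * l) with hY
  have hYe : Y = 2 ^ (600 * l ^ 2) := by rw [hY, hy, ← pow_mul]; congr 1; ring
  have hYpos : 0 < Y := by positivity
  have hl3 : l ^ 2 ≤ l ^ 3 := Nat.pow_le_pow_right (by omega) (by norm_num)
  have hl4 : 64 ≤ l ^ 2 := by nlinarith
  set X := x * (T₁ * T₁ * Y) with hX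
  have hXle : X ≤ 2 ^ (18 * y) := by
    have a1 : x ≤ 2 ^ y := by omega
    have a2 : Y ≤ 2 ^ y := by
      rw [hYe]; exact Nat.pow_le_pow_right (by norm_num) (by omega)
    calc X ≤ 2 ^ y * (2 ^ (8 * y) * 2 ^ (8 * y) * 2 ^ y) := by rw [hX]; gcongr
      _ = _ := by rw [← pow_add, ← pow_add, ← pow_add]; congr 1; ring
  have hX3 : 3 ≤ X := by
    have a1 : 4 ≤ Y := by
      rw [hYe]
      calc 4 = 2 ^ 2 := by norm_num
        _ ≤ _ := Nat.pow_le_pow_right (by norm_num) (by omega)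
    have a2 : 1 * (1 * 1 * Y) ≤ X := by rw [hX]; gcongr <;> omega
    omega
  have hXS : X ≤ S.card := by
    rw [h5]
    calc X ≤ 2 ^ (18 * y) := hXle
      _ ≤ 2 ^ (w * (54 * l)) := Nat.pow_le_pow_right (by norm_num) (by nlinarith)
      _ = (2 ^ w) ^ (54 * l) := by rw [pow_mul]
      _ ≤ _ := Nat.pow_le_pow_left F3 _
  set E := 2 ^ (l + (l + 5 + 54 * l)) with hE
  have hPE : P ≤ 2 ^ E := by
    calc P ≤ b * P := Nat.le_mul_of_pos_left _ (by omega)
      _ ≤ b ^ 2 ^ (l + 5 + 54 * l) := h3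
      _ ≤ (2 ^ y) ^ 2 ^ (l + 5 + 54 * l) := Nat.pow_le_pow_left hb _
      _ = _ := by rw [← pow_mul, hE, pow_add 2 l]
  have hS0 : S.Nonempty := card_pos.1 (by omega)
  have hD0 : T₁.divisors.Nonempty := ⟨1, Nat.one_mem_divisors.2 hT₁pos.ne'⟩
  set K := 2 ^ (115 * l ^ 2) with hK
  have hKpos : 0 < K := by positivity
  have hexp : 5 + 57 * l * (l + 8) ≤ 115 * l ^ 2 := by
    clear * - hl
    nlinarith
  have hKH : 20 * (E + 1) ^ (l + 8) ≤ K := by
    have a1 : E + 1 ≤ 2 ^ (57 * l) := by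
      have : 0 < E := by positivity
      calc E + 1 ≤ E * 2 := by omega
        _ = 2 ^ (l + (l + 5 + 54 * l) + 1) := by rw [pow_succ]
        _ ≤ _ := Nat.pow_le_pow_right (by norm_num) (by omega)
    calc 20 * (E + 1) ^ (l + 8) ≤ 2 ^ 5 * (2 ^ (57 * l)) ^ (l + 8) := by gcongr; norm_num
      _ = 2 ^ (5 + 57 * l * (l + 8)) := by rw [← pow_mul, ← pow_add]
      _ ≤ _ := Nat.pow_le_pow_right (by norm_num) hexp
  have hDK : 8 * K ^ 3 ≤ T₁.divisors.card := by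
    refine le_trans ?_ F3
    have a1 : 666 * l ^ 2 ≤ w := by
      by_contra hlt
      push Not at hlt
      have : 3 * l * w ≤ 3 * l * (666 * l ^ 2) := Nat.mul_le_mul_left _ hlt.le
      have e : 3 * l * (666 * l ^ 2) = 1998 * l ^ 3 := by ring
      omega
    calc 8 * K ^ 3 = 2 ^ (3 + 115 * l ^ 2 * 3) := by rw [hK, ← pow_mul, pow_add]; norm_num
      _ ≤ _ := Nat.pow_le_pow_right (by norm_num) (by omega)
  have hu : 10 * (1 + Real.log X) ≤ 2 ^ (l + 8) := by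
    have a1 : Real.log X ≤ Real.log ((2 : ℝ) ^ (18 * y)) := by
      apply Real.log_le_log (by exact_mod_cast (show 0 < X by omega))
      exact_mod_cast hXle
    rw [Real.log_pow] at a1
    have a2 := Real.log_two_lt_d9
    have a3 : (2 : ℝ) ^ (l + 8) = 256 * y := by
      rw [hy]; push_cast; ring
    have a4 : (1 : ℝ) ≤ y := by exact_mod_cast hypos
    rw [a3]
    push_cast at a1
    nlinarith
  have hYK : 2 * K * (4 * K ^ 4) ≤ Y := by
    rw [hYe]
    calc 2 * K * (4 * K ^ 4) = 2 ^ 3 * K ^ 5 := by ring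
      _ = 2 ^ (3 + 115 * l ^ 2 * 5) := by rw [hK, ← pow_mul, ← pow_add]
      _ ≤ _ := Nat.pow_le_pow_right (by norm_num) (by omega)
  obtain ⟨q₁, q₂, g1, g2, g3, g4, g5⟩ := exists_good_pair (E := E) (u := l + 8) (K := K) hS0 hD0
    (fun s hs => lt_of_lt_of_le (h6 s hs).2.1 hPE)
    (fun d hd => lt_of_le_of_lt (Nat.divisor_le hd) (lt_of_lt_of_le h2 hPE)) hXS hX3 hKH hDK hu
  set M := b * P * (T₁ * T₁ * Y) with hM
  have hMpos : 0 < M := by
    have : 0 < b := by omega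
    positivity
  have key : ∀ q, 0 < q → Good S T₁.divisors K q →
      Short ((q : ℚ) / M) (3 * (54 * l + 1) + 600 * l) := by
    intro q hq hg
    obtain ⟨s₁, hs₁, s₂, hs₂, s₃, hs₃, d, hd, z, hz, hdvd⟩ :=
      exists_dvd_of_coll hq S T₁.divisors hS0 hD0 hKpos hYpos hg.1 hg.2 hYK
    have hdT : d ∣ T₁ := Nat.dvd_of_mem_divisors hd
    have d1 : T₁ * P ∣ M := ⟨b * T₁ * Y, by rw [hM]; ring⟩
    have d2 : d * (T₁ * P) ∣ M :=
      (Nat.mul_dvd_mul_right hdT _).trans ⟨b * Y, by rw [hM]; ring⟩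
    have d3 : T₁ * y ^ (600 * l) ∣ M := ⟨b * P * T₁, by rw [hM]; ring⟩
    have e1 := (h6 s₁ hs₁).2.2.mono d1 le_rfl
    have e2 := (h6 s₂ hs₂).2.2.mono d1 le_rfl
    have e3 := ((h6 s₃ hs₃).2.2.mul d).mono d2 le_rfl
    have e4 := (sumDiv_digits hypos (fun c c0 c1 => dvd_lcmUpto c0 c1) _ z hz).mono d3 le_rfl
    have e5 := ((e1.add e2).add e3).add e4
    have := (h6 s₁ hs₁).1
    exact (e5.short hMpos (by omega) hdvd).mono (by omega)
  have h7 := h4.add ((key q₁ g1 g4).add (key q₂ g2 g5))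
  have h8 : (a : ℚ) / b - (x : ℚ) / (b * P : ℕ) + ((q₁ : ℚ) / M + (q₂ : ℚ) / M) = (a : ℚ) / b := by
    rw [← add_div, ← Nat.cast_add, g3, hX, hM]
    have : 0 < b := by omega
    push_cast
    field_simp
    ring
  rw [h8] at h7
  exact h7.mono (by omega)

theorem exists_threshold : ∃ l₀ : ℕ, 8 ≤ l₀ ∧ ∀ l, l₀ ≤ l → 2000 * l ^ 3 ≤ 2 ^ l := by
  refine ⟨30, by norm_num, fun l hl => ?_⟩
  induction l, hl using Nat.le_induction with
  | base => norm_num
  | succ n hn ih =>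
    rw [pow_succ 2 n]
    have : (n + 1) ^ 3 ≤ 2 * n ^ 3 := by
      have h1 : 30 * n ^ 2 ≤ n ^ 3 := by
        calc 30 * n ^ 2 ≤ n * n ^ 2 := Nat.mul_le_mul_right _ hn
          _ = _ := by ring
      nlinarith
    omega

theorem main :
    ∃ C : ℝ, ∃ b₀ : ℕ, ∀ (a b : ℕ), b₀ ≤ b → 1 ≤ a → a < b →
      ∃ S : Finset ℕ, (∀ n ∈ S, 2 ≤ n) ∧ (S.card : ℝ) ≤ C * Real.log (Real.log (b : ℝ)) ∧
        ∑ n ∈ S, (1 : ℚ) / (n : ℚ) = (a : ℚ) / (b : ℚ) := by
  obtain ⟨l₀, hl₀, hl⟩ := exists_threshold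
  refine ⟨3200, 2 ^ 2 ^ l₀ + 1, fun a b hb ha hab => ?_⟩
  have hex : ∃ l, b ≤ 2 ^ 2 ^ l :=
    ⟨b, (Nat.lt_two_pow_self.le).trans (Nat.pow_le_pow_right (by norm_num) Nat.lt_two_pow_self.le)⟩
  classical
  set l := Nat.find hex with hldef
  have h1 : b ≤ 2 ^ 2 ^ l := Nat.find_spec hex
  have h2 : l₀ < l := by
    by_contra hle
    push Not at hle
    have : 2 ^ 2 ^ l ≤ 2 ^ 2 ^ l₀ :=
      Nat.pow_le_pow_right (by norm_num) (Nat.pow_le_pow_right (by norm_num) hle)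
    omega
  have h3 : 2 ^ 2 ^ (l - 1) < b := by
    have := Nat.find_min hex (m := l - 1) (by omega)
    omega
  have h4 := short_main (l := l) (by omega) (hl l h2.le) (by omega) h1 hab
  have hb0 : (0 : ℚ) < b := by exact_mod_cast (show 0 < b by omega)
  obtain ⟨S, hS1, hS2, hS3⟩ := Short.distinct _ _ (by
    rw [div_lt_one hb0]; exact_mod_cast hab) h4
  refine ⟨S, hS2, ?_, hS3⟩
  have h5 : Real.log ((2 : ℝ) ^ 2 ^ (l - 1)) ≤ Real.log b := by
    apply Real.log_le_log (by positivity)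
    exact_mod_cast h3.le
  rw [Real.log_pow] at h5
  have a2 := Real.log_two_gt_d9
  have h6 : (2 : ℝ) ^ (l - 2) ≤ Real.log b := by
    refine le_trans ?_ h5
    have e : l - 1 = (l - 2) + 1 := by omega
    rw [e]
    push_cast
    rw [pow_succ]
    have : (0 : ℝ) < 2 ^ (l - 2) := by positivity
    nlinarith
  have h7 : Real.log ((2 : ℝ) ^ (l - 2)) ≤ Real.log (Real.log b) :=
    Real.log_le_log (by positivity) h6
  rw [Real.log_pow, Nat.cast_sub (by omega)] at h7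
  have h8 : (S.card : ℝ) ≤ 1600 * l := by exact_mod_cast hS1
  have h9 : (9 : ℝ) ≤ l := by exact_mod_cast (show 9 ≤ l by omega)
  push_cast at h7
  nlinarith

end Crest.Agent.R19
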